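import Vale.Agent.P181.H241.Abs
import Vale.Agent.P181.H280.Form

set_option autoImplicit false

/-! Block [R1]: the alternated first order relation. -/

namespace Vale.Agent.P181.H797

open Vale.Agent.P181 Vale.Agent.P181.H280 Finset

lemma first_order_sq {ι R : Type*} [DecidableEq ι] [CommRing R] [Algebra ℂ R]
    (φ : R →ₗ[ℂ] ℂ) (M : Finset ι) (x y : R) (α β : ι → R)
    (h : ∀ t : ℂ, φ ((x + t • y) * (x + t • y) * ∏ i ∈ M, (α i + t • β i)) = 0) :
    2 * φ (x * y * ∏ i ∈ M, α i) +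
      ∑ l ∈ M, φ (x * x * (β l * ∏ i ∈ M.erase l, α i)) = 0 := by
  let Q : Polynomial R := ∏ i ∈ M, (Polynomial.C (α i) + Polynomial.X * Polynomial.C (β i))
  let P : Polynomial R := Polynomial.C x + Polynomial.X * Polynomial.C y
  have h1 : φ ((P * P * Q).coeff 1) = 0 := by
    apply H241.coeff_zero
    intro t
    rw [← h t]
    congr 1
    simp only [P, Q, Polynomial.eval_prod, Polynomial.eval_add, Polynomial.eval_mul,
      Polynomial.eval_C, Polynomial.eval_X, Algebra.smul_def]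
  have hQ0 : Q.eval 0 = ∏ i ∈ M, α i := by
    simp only [Q, Polynomial.eval_prod]
    apply Finset.prod_congr rfl
    intro i _
    simp
  have hQ1 : Q.derivative.eval 0 = ∑ l ∈ M, β l * ∏ i ∈ M.erase l, α i := by
    simp only [Q]
    rw [Polynomial.derivative_prod_finset, Polynomial.eval_finsetSum]
    apply Finset.sum_congr rfl
    intro l _
    rw [Polynomial.eval_mul, Polynomial.eval_prod, mul_comm]
    congr 1
    · simp
    · apply Finset.prod_congr rfl
      intro i _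
      simp
  have hP0 : P.eval 0 = x := by simp [P]
  have hP1 : P.derivative.eval 0 = y := by simp [P]
  have h2 : (P * P * Q).coeff 1 = (2 : ℂ) • (x * y * ∏ i ∈ M, α i) +
      ∑ l ∈ M, x * x * (β l * ∏ i ∈ M.erase l, α i) := by
    have h3 : (P * P * Q).coeff 1 = (Polynomial.derivative (P * P * Q)).coeff 0 := by
      rw [Polynomial.coeff_derivative]; simp
    rw [h3, Polynomial.coeff_zero_eq_eval_zero]
    rw [Polynomial.derivative_mul, Polynomial.derivative_mul]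
    simp only [Polynomial.eval_add, Polynomial.eval_mul, hQ0, hQ1, hP0, hP1]
    rw [two_smul, Finset.mul_sum]
    ring
  rw [h2, map_add, map_smul, smul_eq_mul, map_sum] at h1
  exact h1

lemma prod_erase_zero {R : Type*} [CommMonoid R] {n : ℕ} (g : Fin (n + 1) → R) :
    ∏ i ∈ (Finset.univ : Finset (Fin (n + 1))).erase 0, g i = ∏ j : Fin n, g j.succ := by
  have h1 : (Finset.univ : Finset (Fin (n + 1))).erase 0 =
      Finset.univ.map ⟨Fin.succ, Fin.succ_injective n⟩ := by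
    rw [Fin.univ_succ, Finset.erase_cons]
  rw [h1, Finset.prod_map]
  rfl

section Abstract

variable {N : ℕ} {A R : Type*} [CommRing A] [Algebra ℂ A] [CommRing R] [Algebra ℂ R]

lemma det_expand (g : Fin (N + 1) → Fin (N + 1) → R) (M : R) :
    Matrix.det (Matrix.of fun s t : Fin (N + 1) => g t s) * M =
    ∑ σ : Equiv.Perm (Fin (N + 1)), ((Equiv.Perm.sign σ : ℤ) : ℂ) •
      ((g 0 (σ 0) * ∏ j : Fin N, g j.succ (σ j.succ)) * M) := by
  rw [Matrix.det_apply, Finset.sum_mul]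
  apply Finset.sum_congr rfl
  intro σ _
  rw [Units.smul_def, Int.cast_smul_eq_zsmul, smul_mul_assoc, Fin.prod_univ_succ]
  rfl

/-- The marks with letters. -/
def mk (x : Fin (N + 1) → A) (B1 : A) (B : Fin N → A) (σ : Equiv.Perm (Fin (N + 1))) :
    Fin (N + 1) → A :=
  Fin.cons B1 (fun j => x (σ j.succ) * B j)

omit [Algebra ℂ A] in
lemma mk_zero (x : Fin (N + 1) → A) (B1 : A) (B : Fin N → A) (σ : Equiv.Perm (Fin (N + 1))) :
    mk x B1 B σ 0 = B1 := rfl

omit [Algebra ℂ A] in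
lemma mk_succ (x : Fin (N + 1) → A) (B1 : A) (B : Fin N → A) (σ : Equiv.Perm (Fin (N + 1)))
    (j : Fin N) : mk x B1 B σ j.succ = x (σ j.succ) * B j := rfl

lemma equal_columns (pl : Fin (N + 2) → A →ₐ[ℂ] R) (f' : R →ₗ[ℂ] ℂ) (x : Fin (N + 1) → A)
    (Y F G B1 : A) (B : Fin N → A) (l : Fin N) :
    ∑ σ : Equiv.Perm (Fin (N + 1)), ((Equiv.Perm.sign σ : ℤ) : ℂ) *
      f' (pl 0 Y * (pl l.succ.succ (mk x B1 B σ l.succ * (x (σ 0) * G)) *
          ∏ i ∈ Finset.univ.erase l.succ, pl i.succ (mk x B1 B σ i * F))) = 0 := by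
  set sw : Equiv.Perm (Fin (N + 1)) := Equiv.swap 0 l.succ with hsw
  have h4 : ∀ σ : Equiv.Perm (Fin (N + 1)),
      (pl l.succ.succ (mk x B1 B (σ * sw) l.succ * (x ((σ * sw) 0) * G)) *
        ∏ i ∈ Finset.univ.erase l.succ, pl i.succ (mk x B1 B (σ * sw) i * F)) =
      pl l.succ.succ (mk x B1 B σ l.succ * (x (σ 0) * G)) *
        ∏ i ∈ Finset.univ.erase l.succ, pl i.succ (mk x B1 B σ i * F) := by
    intro σ
    congr 1
    · rw [mk_succ, mk_succ, Equiv.Perm.mul_apply, Equiv.Perm.mul_apply, hsw,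
        Equiv.swap_apply_left, Equiv.swap_apply_right]
      congr 1
      ring
    · apply Finset.prod_congr rfl
      intro i hi
      have hil := Finset.ne_of_mem_erase hi
      clear hi
      revert hil
      refine Fin.cases ?_ (fun j => ?_) i
      · intro _
        rw [mk_zero, mk_zero]
      · intro hjl
        rw [mk_succ, mk_succ, Equiv.Perm.mul_apply, hsw,
          Equiv.swap_apply_of_ne_of_ne (Fin.succ_ne_zero j) hjl]
  have h5 : ∑ σ : Equiv.Perm (Fin (N + 1)), ((Equiv.Perm.sign σ : ℤ) : ℂ) *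
      f' (pl 0 Y * (pl l.succ.succ (mk x B1 B σ l.succ * (x (σ 0) * G)) *
          ∏ i ∈ Finset.univ.erase l.succ, pl i.succ (mk x B1 B σ i * F))) =
      - ∑ σ : Equiv.Perm (Fin (N + 1)), ((Equiv.Perm.sign σ : ℤ) : ℂ) *
      f' (pl 0 Y * (pl l.succ.succ (mk x B1 B σ l.succ * (x (σ 0) * G)) *
          ∏ i ∈ Finset.univ.erase l.succ, pl i.succ (mk x B1 B σ i * F))) := by
    conv_lhs => rw [← Equiv.sum_comp (Equiv.mulRight sw)]
    rw [← Finset.sum_neg_distrib]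
    apply Finset.sum_congr rfl
    intro σ _
    simp only [Equiv.coe_mulRight]
    rw [h4, map_mul, hsw, Equiv.Perm.sign_swap (Fin.succ_ne_zero l).symm]
    simp
  exact self_eq_neg.1 h5

/-- **Block [R1]**, abstract form. -/
theorem rOneA (pl : Fin (N + 2) → A →ₐ[ℂ] R) (L : Submodule ℂ A) (f' : R →ₗ[ℂ] ℂ)
    (H : ∀ F ∈ L ^ (N + 2), ∀ B : Fin (N + 1) → A, (∀ j, B j ∈ L ^ (N + 1)) →
      f' (pl 0 (F * F) * ∏ j : Fin (N + 1), pl j.succ (B j * F)) = 0)
    (x : Fin (N + 1) → A) (hx : ∀ s, x s ∈ L)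
    (F : A) (hF : F ∈ L ^ (N + 2)) (G : A) (hG : G ∈ L ^ (N + 1))
    (B1 : A) (hB1 : B1 ∈ L ^ (N + 1)) (B : Fin N → A) (hB : ∀ j, B j ∈ L ^ N) :
    2 * f' (Matrix.det (Matrix.of fun s t : Fin (N + 1) =>
        pl ((Fin.cons 0 (fun t : Fin N => t.succ.succ) : Fin (N + 1) → Fin (N + 2)) t) (x s)) *
      (pl 0 (F * G) * pl 1 (B1 * F) * ∏ j : Fin N, pl j.succ.succ (B j * F))) +
    f' (Matrix.det (Matrix.of fun s t : Fin (N + 1) => pl t.succ (x s)) *
      (pl 0 (F * F) * pl 1 (B1 * G) * ∏ j : Fin N, pl j.succ.succ (B j * F))) = 0 := by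
  classical
  have hBs : ∀ σ j, mk x B1 B σ j ∈ L ^ (N + 1) := by
    intro σ j
    refine Fin.cases ?_ (fun j => ?_) j
    · exact hB1
    · rw [mk_succ, pow_succ']
      exact Submodule.mul_mem_mul (hx _) (hB j)
  have hG0 : ∀ s : Fin (N + 1), x s * G ∈ L ^ (N + 2) := by
    intro s
    have h1 : L ^ (N + 2) = L * L ^ (N + 1) := pow_succ' L (N + 1)
    rw [h1]
    exact Submodule.mul_mem_mul (hx _) hG
  have h1 : ∀ σ : Equiv.Perm (Fin (N + 1)),
      2 * f' (pl 0 F * pl 0 (x (σ 0) * G) *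
        ∏ j : Fin (N + 1), pl j.succ (mk x B1 B σ j * F)) +
      ∑ l : Fin (N + 1), f' (pl 0 F * pl 0 F *
        (pl l.succ (mk x B1 B σ l * (x (σ 0) * G)) *
          ∏ i ∈ Finset.univ.erase l, pl i.succ (mk x B1 B σ i * F))) = 0 := by
    intro σ
    apply first_order_sq
    intro t
    rw [← H (F + t • (x (σ 0) * G)) (Submodule.add_mem _ hF (Submodule.smul_mem _ _ (hG0 _)))
      (mk x B1 B σ) (hBs σ)]
    congr 1
    have h0 : pl 0 ((F + t • (x (σ 0) * G)) * (F + t • (x (σ 0) * G))) =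
        (pl 0 F + t • pl 0 (x (σ 0) * G)) * (pl 0 F + t • pl 0 (x (σ 0) * G)) := by
      rw [map_mul (pl 0) (F + t • (x (σ 0) * G)), map_add, map_smul]
    rw [h0]
    congr 1
    apply Finset.prod_congr rfl
    intro i _
    rw [mul_add, map_add, mul_smul_comm, map_smul]
  have h2 : ∑ σ : Equiv.Perm (Fin (N + 1)), ((Equiv.Perm.sign σ : ℤ) : ℂ) *
      (2 * f' (pl 0 F * pl 0 (x (σ 0) * G) *
        ∏ j : Fin (N + 1), pl j.succ (mk x B1 B σ j * F)) +
      ∑ l : Fin (N + 1), f' (pl 0 F * pl 0 F *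
        (pl l.succ (mk x B1 B σ l * (x (σ 0) * G)) *
          ∏ i ∈ Finset.univ.erase l, pl i.succ (mk x B1 B σ i * F)))) = 0 :=
    Finset.sum_eq_zero (fun σ _ => by rw [h1, mul_zero])
  have h6 : ∑ σ : Equiv.Perm (Fin (N + 1)), ((Equiv.Perm.sign σ : ℤ) : ℂ) *
      f' (pl 0 F * pl 0 (x (σ 0) * G) *
        ∏ j : Fin (N + 1), pl j.succ (mk x B1 B σ j * F)) =
      f' (Matrix.det (Matrix.of fun s t : Fin (N + 1) =>
        pl ((Fin.cons 0 (fun t : Fin N => t.succ.succ) : Fin (N + 1) → Fin (N + 2)) t) (x s)) *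
      (pl 0 (F * G) * pl 1 (B1 * F) * ∏ j : Fin N, pl j.succ.succ (B j * F))) := by
    rw [det_expand (fun t s =>
      pl ((Fin.cons 0 (fun t : Fin N => t.succ.succ) : Fin (N + 1) → Fin (N + 2)) t) (x s)),
      map_sum]
    apply Finset.sum_congr rfl
    intro σ _
    rw [map_smul, smul_eq_mul]
    congr 2
    rw [Fin.prod_univ_succ]
    simp only [mk_zero, mk_succ, Fin.cons_zero, Fin.cons_succ, map_mul, Finset.prod_mul_distrib]
    rw [Fin.succ_zero_eq_one]
    ring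
  have h7 : ∑ σ : Equiv.Perm (Fin (N + 1)), ((Equiv.Perm.sign σ : ℤ) : ℂ) *
      f' (pl 0 F * pl 0 F *
        (pl (0 : Fin (N + 1)).succ (mk x B1 B σ 0 * (x (σ 0) * G)) *
          ∏ i ∈ Finset.univ.erase 0, pl i.succ (mk x B1 B σ i * F))) =
      f' (Matrix.det (Matrix.of fun s t : Fin (N + 1) => pl t.succ (x s)) *
      (pl 0 (F * F) * pl 1 (B1 * G) * ∏ j : Fin N, pl j.succ.succ (B j * F))) := by
    rw [det_expand (fun t s => pl t.succ (x s)), map_sum]
    apply Finset.sum_congr rfl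
    intro σ _
    rw [map_smul, smul_eq_mul]
    congr 2
    rw [prod_erase_zero]
    simp only [mk_zero, mk_succ, map_mul, Finset.prod_mul_distrib]
    rw [Fin.succ_zero_eq_one]
    ring
  have h3 := equal_columns pl f' x (F * F) F G B1 B
  rw [map_mul] at h3
  have h8 : ∀ σ : Equiv.Perm (Fin (N + 1)), ∑ l : Fin (N + 1), f' (pl 0 F * pl 0 F *
        (pl l.succ (mk x B1 B σ l * (x (σ 0) * G)) *
          ∏ i ∈ Finset.univ.erase l, pl i.succ (mk x B1 B σ i * F))) =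
      f' (pl 0 F * pl 0 F *
        (pl (0 : Fin (N + 1)).succ (mk x B1 B σ 0 * (x (σ 0) * G)) *
          ∏ i ∈ Finset.univ.erase 0, pl i.succ (mk x B1 B σ i * F))) +
      ∑ l : Fin N, f' (pl 0 F * pl 0 F *
        (pl l.succ.succ (mk x B1 B σ l.succ * (x (σ 0) * G)) *
          ∏ i ∈ Finset.univ.erase l.succ, pl i.succ (mk x B1 B σ i * F))) :=
    fun σ => Fin.sum_univ_succ _
  have h9 : ∑ σ : Equiv.Perm (Fin (N + 1)), ((Equiv.Perm.sign σ : ℤ) : ℂ) *
      ∑ l : Fin N, f' (pl 0 F * pl 0 F *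
        (pl l.succ.succ (mk x B1 B σ l.succ * (x (σ 0) * G)) *
          ∏ i ∈ Finset.univ.erase l.succ, pl i.succ (mk x B1 B σ i * F))) = 0 := by
    simp only [Finset.mul_sum]
    rw [Finset.sum_comm]
    exact Finset.sum_eq_zero (fun l _ => h3 l)
  rw [← h6, ← h7, ← h2, Finset.mul_sum, ← Finset.sum_add_distrib, ← sub_eq_zero,
    ← Finset.sum_sub_distrib, ← neg_eq_zero, ← Finset.sum_neg_distrib, ← h9]
  apply Finset.sum_congr rfl
  intro σ _
  rw [h8 σ]
  ring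

end Abstract

section

open MvPolynomial

/-- **Block [R1]**. -/
theorem rOne {N : ℕ} (f' : MvPolynomial (Fin (N + 2) × Fin (N + 1)) ℂ →ₗ[ℂ] ℂ)
    (H : ∀ F ∈ linS (N + 1) ^ (N + 2), ∀ B : Fin (N + 1) → MvPolynomial (Fin (N + 1)) ℂ,
      (∀ j, B j ∈ linS (N + 1) ^ (N + 1)) →
      f' (rename (Prod.mk 0) (F * F) *
        ∏ j : Fin (N + 1), rename (Prod.mk j.succ) (B j * F)) = 0)
    (F : MvPolynomial (Fin (N + 1)) ℂ) (hF : F ∈ linS (N + 1) ^ (N + 2))
    (G : MvPolynomial (Fin (N + 1)) ℂ) (hG : G ∈ linS (N + 1) ^ (N + 1))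
    (B1 : MvPolynomial (Fin (N + 1)) ℂ) (hB1 : B1 ∈ linS (N + 1) ^ (N + 1))
    (B : Fin N → MvPolynomial (Fin (N + 1)) ℂ) (hB : ∀ j, B j ∈ linS (N + 1) ^ N) :
    2 * f' (Matrix.det (Matrix.of fun s t : Fin (N + 1) =>
        (X ((Fin.cons 0 (fun t : Fin N => t.succ.succ) : Fin (N + 1) → Fin (N + 2)) t, s) :
          MvPolynomial (Fin (N + 2) × Fin (N + 1)) ℂ)) *
      (rename (Prod.mk 0) (F * G) * rename (Prod.mk 1) (B1 * F) *
        ∏ j : Fin N, rename (Prod.mk j.succ.succ) (B j * F))) +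
    f' (Matrix.det (Matrix.of fun s t : Fin (N + 1) =>
        (X (t.succ, s) : MvPolynomial (Fin (N + 2) × Fin (N + 1)) ℂ)) *
      (rename (Prod.mk 0) (F * F) * rename (Prod.mk 1) (B1 * G) *
        ∏ j : Fin N, rename (Prod.mk j.succ.succ) (B j * F))) = 0 := by
  have h := rOneA (fun i : Fin (N + 2) =>
    (rename (Prod.mk i) :
      MvPolynomial (Fin (N + 1)) ℂ →ₐ[ℂ] MvPolynomial (Fin (N + 2) × Fin (N + 1)) ℂ))
    (linS (N + 1)) f' H X (fun s => X_mem_linS s) F hF G hG B1 hB1 B hB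
  simp only [rename_X] at h
  exact h

end

end Vale.Agent.P181.H797
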