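import Vale.Agent.P181.H280.Core
import Vale.Agent.P181.H280.Form

set_option autoImplicit false

namespace Vale.Agent.P181.H797

open Vale.Agent.P181 Vale.Agent.P181.H280 Finset

section Trick

variable {A : Type*} [CommRing A] [Algebra ℂ A]

/-- Bookkeeping of the marked entries `(j.succ, 0)` of a permuted array. -/
lemma row_marked1 {B : Type*} [CommMonoid B] {n q : ℕ}
    (π : Equiv.Perm (Fin (n + 1) × Fin (q + 1))) (z : Fin n → B) (i : Fin (n + 1)) :
    ∏ k, (if (π (i, k)).2 = 0 then (Fin.cons 1 z : Fin (n + 1) → B) (π (i, k)).1 else 1) =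
      ∏ j : Fin n, (if (π.symm (j.succ, 0)).1 = i then z j else 1) := by
  rw [row_marked π (Fin.cons 1 z : Fin (n + 1) → B) i, Fin.prod_univ_succ]
  simp only [Fin.cons_zero, Fin.cons_succ, ite_self, one_mul]

lemma exists_perm {n : ℕ} (r : Fin n → Fin (n + 1)) (hr : Function.Injective r) :
    ∃ ρ : Equiv.Perm (Fin (n + 1)), ∀ j : Fin n, ρ j.succ = r j := by
  have h1 : ¬ Function.Surjective r := by
    intro h
    have h2 := Fintype.card_le_of_surjective r h
    simp at h2
  rw [Function.Surjective] at h1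
  push Not at h1
  obtain ⟨m, hm⟩ := h1
  have h2 : Function.Injective (Fin.cons m r : Fin (n + 1) → Fin (n + 1)) := by
    rw [Fin.cons_injective_iff]
    refine ⟨?_, hr⟩
    rintro ⟨j, hj⟩
    exact hm j hj
  refine ⟨Equiv.ofBijective _ (Finite.injective_iff_bijective.1 h2), ?_⟩
  intro j
  rw [Equiv.ofBijective_apply, Fin.cons_succ]

lemma prod_rho {B : Type*} [CommMonoid B] {n : ℕ} (r : Fin n → Fin (n + 1))
    (ρ : Equiv.Perm (Fin (n + 1))) (h : ∀ j : Fin n, ρ j.succ = r j) (z : Fin n → B)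
    (i : Fin (n + 1)) :
    ∏ j : Fin n, (if r j = ρ i then z j else 1) = (Fin.cons 1 z : Fin (n + 1) → B) i := by
  refine Fin.cases ?_ (fun j => ?_) i
  · rw [Fin.cons_zero]
    apply Finset.prod_eq_one
    intro j _
    rw [if_neg]
    rw [← h j, EmbeddingLike.apply_eq_iff_eq]
    exact Fin.succ_ne_zero j
  · rw [Fin.cons_succ, Finset.prod_eq_single j]
    · rw [if_pos (h j).symm]
    · intro l _ hl
      rw [if_neg]
      rw [← h l, EmbeddingLike.apply_eq_iff_eq, Fin.succ_inj]
      exact hl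
    · intro h'
      exact absurd (Finset.mem_univ _) h'

/-- **The alternating placement trick with one unmarked point.** -/
theorem ttrick1 (L : Submodule ℂ A) {n : ℕ}
    (F : MultilinearMap ℂ (fun _ : Fin (n + 1) => A) ℂ)
    (hs : IsSymm F) (hd : ∀ G ∈ L ^ (n + 1), F (fun _ => G * G) = 0)
    (x : Fin n → A) (hx : ∀ i, x i ∈ L) (v : Fin n → A) (hv : ∀ i, v i ∈ L ^ n)
    (G : A) (hG : G ∈ L ^ (n + 1)) :
    ∑ τ : Equiv.Perm (Fin n), ((Equiv.Perm.sign τ : ℤ) : ℂ) *
      F (Fin.cons (G * G) (fun j => x (τ j) * v j * G)) = 0 := by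
  classical
  let w : Equiv.Perm (Fin n) → Fin (n + 1) → A := fun τ =>
    Fin.cons 1 (fun j => x (τ j) * v j)
  let c : Fin (n + 1) × Fin 2 → A := fun p => if p.2 = 0 ∧ p.1 ≠ 0 then 1 else G
  let y : Equiv.Perm (Fin n) → Fin (n + 1) × Fin 2 → A := fun τ p =>
    (if p.2 = 0 then w τ p.1 else 1) * c p
  have hy : ∀ τ p, y τ p ∈ L ^ (n + 1) := by
    intro τ p
    obtain ⟨i, k⟩ := p
    simp only [y, c, w]
    by_cases hk : k = 0
    · subst hk
      refine Fin.cases ?_ (fun j => ?_) i
      · simpa using hG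
      · have h1 : L ^ (n + 1) = L * L ^ n := pow_succ' L n
        rw [h1]
        simpa [Fin.succ_ne_zero] using Submodule.mul_mem_mul (hx (τ j)) (hv j)
    · simpa [hk] using hG
  have hpol : ∀ τ, ∑ π : Equiv.Perm (Fin (n + 1) × Fin 2),
      F (fun i => ∏ k, y τ (π (i, k))) = 0 := by
    intro τ
    have h1 := polar (rowProd 2 F) (L ^ (n + 1)) (by
      intro G' hG'
      rw [rowProd_apply, ← hd G' hG']
      congr 1
      funext i
      rw [Finset.prod_const, Finset.card_univ, Fintype.card_fin, pow_two]) (y τ) (hy τ)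
    exact h1
  -- the row products
  have hrow : ∀ τ (π : Equiv.Perm (Fin (n + 1) × Fin 2)) i, ∏ k, y τ (π (i, k)) =
      (∏ j : Fin n, (if (π.symm (j.succ, 0)).1 = i then x (τ j) * v j else 1)) *
        ∏ k, c (π (i, k)) := by
    intro τ π i
    rw [← row_marked1 π (fun j => x (τ j) * v j) i, ← Finset.prod_mul_distrib]
  set T := ∑ τ : Equiv.Perm (Fin n), ((Equiv.Perm.sign τ : ℤ) : ℂ) *
      F (Fin.cons (G * G) (fun j => x (τ j) * v j * G)) with hT
  have hmain : ∀ π : Equiv.Perm (Fin (n + 1) × Fin 2),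
      ∑ τ : Equiv.Perm (Fin n), ((Equiv.Perm.sign τ : ℤ) : ℂ) *
        F (fun i => ∏ k, y τ (π (i, k))) =
      if Function.Injective (fun j : Fin n => (π.symm (j.succ, 0)).1) then T else 0 := by
    intro π
    by_cases hinj : Function.Injective (fun j : Fin n => (π.symm (j.succ, 0)).1)
    · rw [if_pos hinj]
      obtain ⟨ρ, hρ⟩ := exists_perm _ hinj
      -- the unmarked factors
      have hcnt : ∀ i, (2 : ℕ) ^ (Finset.univ.filter
          (fun k : Fin 2 => (π (i, k)).2 = 0 ∧ (π (i, k)).1 ≠ 0)).card =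
          ∏ j : Fin n, (if (π.symm (j.succ, 0)).1 = i then 2 else 1) := by
        intro i
        rw [← row_marked1 π (fun _ => (2 : ℕ)) i, ← Finset.prod_const, Finset.prod_filter]
        apply Finset.prod_congr rfl
        intro k _
        generalize π (i, k) = p
        obtain ⟨i', k'⟩ := p
        refine Fin.cases ?_ (fun j => ?_) i'
        · simp
        · simp [Fin.succ_ne_zero]
      have hc : ∀ i, ∏ k, c (π (i, k)) = G ^ (2 - (Finset.univ.filter
          (fun k : Fin 2 => (π (i, k)).2 = 0 ∧ (π (i, k)).1 ≠ 0)).card) := by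
        intro i
        simp only [c]
        rw [Finset.prod_ite, Finset.prod_const_one, one_mul, Finset.prod_const]
        congr 1
        have h4 := Finset.card_filter_add_card_filter_not (s := (Finset.univ : Finset (Fin 2)))
          (fun k => (π (i, k)).2 = 0 ∧ (π (i, k)).1 ≠ 0)
        rw [Finset.card_univ, Fintype.card_fin] at h4
        omega
      have hrowz : ∀ τ, (fun i => ∏ k, y τ (π (i, k))) = fun i =>
          (Fin.cons (G * G) (fun j => x (τ j) * v j * G) : Fin (n + 1) → A) (ρ.symm i) := by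
        intro τ
        funext i
        obtain ⟨i, rfl⟩ := ρ.surjective i
        have h0 := hcnt (ρ i)
        rw [prod_rho _ ρ hρ] at h0
        rw [Equiv.symm_apply_apply, hrow, hc, prod_rho _ ρ hρ]
        revert h0
        refine Fin.cases ?_ (fun j => ?_) i
        · intro h0
          rw [Fin.cons_zero] at h0
          have h1 := Nat.pow_right_injective le_rfl (h0.trans (pow_zero 2).symm)
          rw [h1, Fin.cons_zero, Fin.cons_zero, one_mul, Nat.sub_zero, pow_two]
        · intro h0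
          rw [Fin.cons_succ] at h0
          have h1 := Nat.pow_right_injective le_rfl (h0.trans (pow_one 2).symm)
          rw [h1, Fin.cons_succ, Fin.cons_succ, pow_one]
      have h5 : ∀ τ : Equiv.Perm (Fin n), F (fun i => ∏ k, y τ (π (i, k))) =
          F (Fin.cons (G * G) (fun j => x (τ j) * v j * G)) := by
        intro τ
        rw [hrowz, hs ρ.symm]
      rw [hT]
      exact Finset.sum_congr rfl (fun τ _ => by rw [h5])
    · rw [if_neg hinj]
      rw [Function.not_injective_iff] at hinj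
      obtain ⟨j, j', hjj, hne⟩ := hinj
      have hjj' : (π.symm (j.succ, 0)).1 = (π.symm (j'.succ, 0)).1 := hjj
      set sw := Equiv.swap j j' with hsw
      have h1 : ∀ τ : Equiv.Perm (Fin n), F (fun i => ∏ k, y (τ * sw) (π (i, k))) =
          F (fun i => ∏ k, y τ (π (i, k))) := by
        intro τ
        congr 1
        funext i
        rw [hrow, hrow]
        congr 1
        have h2 : ∀ τ' : Equiv.Perm (Fin n),
            ∏ l : Fin n, (if (π.symm (l.succ, 0)).1 = i then x (τ' l) * v l else 1) =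
            (∏ l : Fin n, (if (π.symm (l.succ, 0)).1 = i then v l else 1)) *
              ∏ l : Fin n, (if (π.symm (l.succ, 0)).1 = i then x (τ' l) else 1) := by
          intro τ'
          rw [← Finset.prod_mul_distrib]
          apply Finset.prod_congr rfl
          intro l _
          split_ifs
          · rw [mul_comm]
          · rw [one_mul]
        rw [h2, h2]
        congr 1
        rw [← Equiv.prod_comp sw
          (fun l => if (π.symm (l.succ, 0)).1 = i then x (τ l) else 1)]
        apply Finset.prod_congr rfl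
        intro l _
        have h3 : (π.symm ((sw l).succ, 0)).1 = (π.symm (l.succ, 0)).1 := by
          by_cases hl : l = j
          · rw [hl, hsw, Equiv.swap_apply_left, hjj']
          · by_cases hl' : l = j'
            · rw [hl', hsw, Equiv.swap_apply_right, hjj']
            · rw [hsw, Equiv.swap_apply_of_ne_of_ne hl hl']
        rw [h3]
        rfl
      have h4 : ∑ τ : Equiv.Perm (Fin n), ((Equiv.Perm.sign τ : ℤ) : ℂ) *
          F (fun i => ∏ k, y τ (π (i, k))) =
          - ∑ τ : Equiv.Perm (Fin n), ((Equiv.Perm.sign τ : ℤ) : ℂ) *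
          F (fun i => ∏ k, y τ (π (i, k))) := by
        conv_lhs => rw [← Equiv.sum_comp (Equiv.mulRight sw)]
        rw [← Finset.sum_neg_distrib]
        apply Finset.sum_congr rfl
        intro τ _
        simp only [Equiv.coe_mulRight]
        rw [h1, map_mul, hsw, Equiv.Perm.sign_swap hne]
        simp
      exact self_eq_neg.1 h4
  have hsum : ∑ π : Equiv.Perm (Fin (n + 1) × Fin 2),
      (if Function.Injective (fun j : Fin n => (π.symm (j.succ, 0)).1) then T else 0) = 0 := by
    rw [← Finset.sum_congr rfl (fun π _ => hmain π), Finset.sum_comm]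
    apply Finset.sum_eq_zero
    intro τ _
    rw [← Finset.mul_sum, hpol, mul_zero]
  rw [← Finset.sum_filter, Finset.sum_const, nsmul_eq_mul] at hsum
  refine (mul_eq_zero.1 hsum).resolve_left ?_
  intro h0
  rw [Nat.cast_eq_zero, Finset.card_eq_zero, Finset.filter_eq_empty_iff] at h0
  exact h0 (Finset.mem_univ 1) (fun j j' h => Fin.succ_injective _ h)

end Trick

section One

open MvPolynomial

variable {n : ℕ}

/-- `P` at the point `i`. -/
noncomputable def at' (i : Fin (n + 1)) :
    MvPolynomial (Fin n) ℂ →ₐ[ℂ] MvPolynomial (Fin (n + 1) × Fin n) ℂ :=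
  rename (Prod.mk i)

/-- The multilinear form of a functional. -/
noncomputable def mf (f : MvPolynomial (Fin (n + 1) × Fin n) ℂ →ₗ[ℂ] ℂ) :
    MultilinearMap ℂ (fun _ : Fin (n + 1) => MvPolynomial (Fin n) ℂ) ℂ :=
  f.compMultilinearMap ((MultilinearMap.mkPiAlgebra ℂ (Fin (n + 1))
    (MvPolynomial (Fin (n + 1) × Fin n) ℂ)).compLinearMap (fun i => (at' i).toLinearMap))

lemma mf_apply (f : MvPolynomial (Fin (n + 1) × Fin n) ℂ →ₗ[ℂ] ℂ)
    (P : Fin (n + 1) → MvPolynomial (Fin n) ℂ) :
    mf f P = f (∏ i, rename (Prod.mk i) (P i)) := rfl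

lemma mf_symm (f : MvPolynomial (Fin (n + 1) × Fin n) ℂ →ₗ[ℂ] ℂ)
    (hs : ∀ (σ : Equiv.Perm (Fin (n + 1))) (M : MvPolynomial (Fin (n + 1) × Fin n) ℂ),
      f (rename (Prod.map σ id) M) = f M) : IsSymm (mf f) := by
  intro σ P
  have h1 : rename (Prod.map σ id) (∏ i, rename (Prod.mk i) (P (σ i))) =
      ∏ i, rename (Prod.mk i) (P i) := by
    rw [map_prod (rename (Prod.map σ id) :
      MvPolynomial (Fin (n + 1) × Fin n) ℂ →ₐ[ℂ] MvPolynomial (Fin (n + 1) × Fin n) ℂ),
      ← Equiv.prod_comp σ (fun i => rename (Prod.mk i) (P i))]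
    apply Finset.prod_congr rfl
    intro i _
    rw [rename_rename]
    rfl
  rw [mf_apply, mf_apply, ← hs σ (∏ i, rename (Prod.mk i) (P (σ i))), h1]

lemma prod_cols (B : Fin n → MvPolynomial (Fin n) ℂ) (F : MvPolynomial (Fin n) ℂ)
    (τ : Equiv.Perm (Fin n)) :
    (∏ t : Fin n, (X (t.succ, τ t) : MvPolynomial (Fin (n + 1) × Fin n) ℂ)) *
      (rename (Prod.mk 0) (F * F) * ∏ j : Fin n, rename (Prod.mk j.succ) (B j * F)) =
    ∏ i : Fin (n + 1), rename (Prod.mk i)
        ((Fin.cons (F * F) (fun j => X (τ j) * B j * F) :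
          Fin (n + 1) → MvPolynomial (Fin n) ℂ) i) := by
  rw [Fin.prod_univ_succ, mul_left_comm, ← Finset.prod_mul_distrib]
  simp only [Fin.cons_zero, Fin.cons_succ, map_mul, rename_X, mul_assoc]

lemma det_cols (B : Fin n → MvPolynomial (Fin n) ℂ) (F : MvPolynomial (Fin n) ℂ) :
    Matrix.det (Matrix.of fun s t : Fin n =>
        (X (t.succ, s) : MvPolynomial (Fin (n + 1) × Fin n) ℂ)) *
      (rename (Prod.mk 0) (F * F) *
        ∏ j : Fin n, rename (Prod.mk j.succ) (B j * F)) =
    ∑ τ : Equiv.Perm (Fin n), ((Equiv.Perm.sign τ : ℤ) : ℂ) •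
      ∏ i : Fin (n + 1), rename (Prod.mk i)
        ((Fin.cons (F * F) (fun j => X (τ j) * B j * F) :
          Fin (n + 1) → MvPolynomial (Fin n) ℂ) i) := by
  rw [Matrix.det_apply, Finset.sum_mul]
  apply Finset.sum_congr rfl
  intro τ _
  rw [← prod_cols B F τ, Units.smul_def, Int.cast_smul_eq_zsmul, smul_mul_assoc]
  rfl

/-- **Block [ONE]**: a symmetric functional which kills all `∏ F(y_i)^2` kills
`det(points 1..n) · F(y_0)^2 · ∏_j B_j(y_j) F(y_j)`. -/
theorem one (f : MvPolynomial (Fin (n + 1) × Fin n) ℂ →ₗ[ℂ] ℂ)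
    (hs : ∀ (σ : Equiv.Perm (Fin (n + 1))) (M : MvPolynomial (Fin (n + 1) × Fin n) ℂ),
      f (rename (Prod.map σ id) M) = f M)
    (hk : ∀ F ∈ linS n ^ (n + 1), f (∏ i : Fin (n + 1), rename (Prod.mk i) (F * F)) = 0)
    (F : MvPolynomial (Fin n) ℂ) (hF : F ∈ linS n ^ (n + 1))
    (B : Fin n → MvPolynomial (Fin n) ℂ) (hB : ∀ j, B j ∈ linS n ^ n) :
    f (Matrix.det (Matrix.of fun s t : Fin n =>
        (X (t.succ, s) : MvPolynomial (Fin (n + 1) × Fin n) ℂ)) *
      (rename (Prod.mk 0) (F * F) *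
        ∏ j : Fin n, rename (Prod.mk j.succ) (B j * F))) = 0 := by
  have h1 := ttrick1 (linS n) (mf f) (mf_symm f hs)
    (fun G hG => by rw [mf_apply]; exact hk G hG)
    X (fun i => X_mem_linS i) B hB F hF
  rw [det_cols, map_sum, ← h1]
  apply Finset.sum_congr rfl
  intro τ _
  rw [mf_apply, map_smul, smul_eq_mul]

end One

end Vale.Agent.P181.H797
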