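import Vale.Agent.P181.H797.Step3
import Vale.Agent.P181.H797.One
import Vale.Agent.P181.H563.Merge

set_option autoImplicit false

/-! The product of two minors kills. -/

namespace Vale.Agent.P181.H797

open Vale.Agent.P181 Vale.Agent.P181.H241 Finset

section Swap

variable {N : ℕ} {A R : Type*} [CommRing A] [Algebra ℂ A] [CommRing R] [Algebra ℂ R]

lemma det_swap (pl : Fin (N + 2) → A →ₐ[ℂ] R) {x y : Fin (N + 2)} (τ : R →ₐ[ℂ] R)
    (hτ : ∀ i P, τ (pl i P) = pl (Equiv.swap x y i) P) (c : Fin (N + 1) → Fin (N + 2))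
    (hc : Function.Injective c) (a b : Fin (N + 1)) (hab : a ≠ b) (ha : c a = x) (hb : c b = y)
    (l : Fin (N + 1) → A) :
    τ (Matrix.det (Matrix.of fun s t : Fin (N + 1) => pl (c t) (l s))) =
      - Matrix.det (Matrix.of fun s t : Fin (N + 1) => pl (c t) (l s)) := by
  have h1 : ∀ t, Equiv.swap x y (c t) = c (Equiv.swap a b t) := by
    intro t
    by_cases hta : t = a
    · rw [hta, ha, Equiv.swap_apply_left, Equiv.swap_apply_left, hb]
    · by_cases htb : t = b
      · rw [htb, hb, Equiv.swap_apply_right, Equiv.swap_apply_right, ha]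
      · rw [Equiv.swap_apply_of_ne_of_ne hta htb, Equiv.swap_apply_of_ne_of_ne]
        · rw [← ha]; exact fun h => hta (hc h)
        · rw [← hb]; exact fun h => htb (hc h)
  rw [AlgHom.map_det]
  have h2 : τ.mapMatrix (Matrix.of fun s t : Fin (N + 1) => pl (c t) (l s)) =
      (Matrix.of fun s t : Fin (N + 1) => pl (c t) (l s)).submatrix id (Equiv.swap a b) := by
    ext s t
    simp only [AlgHom.mapMatrix_apply, Matrix.map_apply, Matrix.of_apply, Matrix.submatrix_apply,
      id_eq]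
    rw [hτ, h1]
  rw [h2, Matrix.det_permute', Equiv.Perm.sign_swap hab]
  simp

lemma sym_of (f : R →ₗ[ℂ] ℂ) (τ : R →ₐ[ℂ] R) (hf : ∀ M, f (τ M) = f M) {D0 D1 b : R}
    (h0 : τ D0 = - D0) (h1 : τ D1 = - D1) (hb : τ b = b) (M : R) :
    H241.mf (H241.mf f D0) (D1 * b) (τ M) = H241.mf (H241.mf f D0) (D1 * b) M := by
  rw [H241.mf_apply, H241.mf_apply, H241.mf_apply, H241.mf_apply, ← hf (D0 * (D1 * b * M)),
    map_mul τ, map_mul τ, map_mul τ, h0, h1, hb]
  congr 1
  ring

end Swap

section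

open MvPolynomial

variable {N : ℕ}

/-- The placements of forms. -/
noncomputable def plc (i : Fin (N + 2)) :
    MvPolynomial (Fin (N + 1)) ℂ →ₐ[ℂ] MvPolynomial (Fin (N + 2) × Fin (N + 1)) ℂ :=
  rename (Prod.mk i)

lemma sk_injective : Function.Injective (sk : Fin (N + 1) → Fin (N + 2)) := by
  rw [sk, Fin.cons_injective_iff]
  constructor
  · rintro ⟨j, hj⟩
    exact Fin.succ_ne_zero _ hj
  · intro i j h
    exact Fin.succ_injective _ (Fin.succ_injective _ h)

/-- **`f · D_0 · D_1 = 0`.** -/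
theorem d0d1 (hN : 2 ≤ N) (f : MvPolynomial (Fin (N + 2) × Fin (N + 1)) ℂ →ₗ[ℂ] ℂ)
    (hs : ∀ (σ : Equiv.Perm (Fin (N + 2))) (M : MvPolynomial (Fin (N + 2) × Fin (N + 1)) ℂ),
      f (rename (fun p => (σ p.1, p.2)) M) = f M)
    (hk : ∀ F ∈ H280.linS (N + 1) ^ (N + 2),
      f (∏ i : Fin (N + 2), rename (Prod.mk i) (F * F)) = 0) :
    ∀ P ∈ H280.linS (N + 1) ^ (2 * N + 3), ∀ Q ∈ H280.linS (N + 1) ^ (2 * N + 3),
      ∀ B : Fin N → MvPolynomial (Fin (N + 1)) ℂ, (∀ j, B j ∈ H280.linS (N + 1) ^ (2 * N + 2)) →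
      f (dZero (plc (N := N)) X * (dOne (plc (N := N)) X * (rename (Prod.mk 0) P *
        rename (Prod.mk 1) Q * ∏ j : Fin N, rename (Prod.mk j.succ.succ) (B j)))) = 0 := by
  set f' := H241.mf f (dZero (plc (N := N)) X) with hf'
  have hx : ∀ s : Fin (N + 1), (X s : MvPolynomial (Fin (N + 1)) ℂ) ∈ H280.linS (N + 1) :=
    fun s => H280.X_mem_linS s
  have H : HypH (plc (N := N)) (H280.linS (N + 1)) f' := by
    intro F hF B hB
    have h1 := one f hs hk F hF B hB
    rw [hf', H241.mf_apply, dZero]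
    simp only [plc, rename_X]
    exact h1
  have hmerge : MergeH (plc (N := N)) (H280.linS (N + 1)) := H563.mergeH (N + 1)
  have hg : ∀ u ∈ H280.linS (N + 1), ∀ v ∈ H280.linS (N + 1),
      ∀ B : Fin (N + 2) → MvPolynomial (Fin (N + 1)) ℂ,
      (∀ i, B i ∈ H280.linS (N + 1) ^ (N + 2 + N)) →
      f' (dOne plc X * (br plc 0 1 u v * ∏ i, plc i (B i))) = 0 := by
    intro u hu v hv B hB
    obtain ⟨K, rfl⟩ : ∃ K, N = K + 2 := ⟨N - 2, by omega⟩
    let x : Fin (K + 2 + 2) := (⟨K, by omega⟩ : Fin (K + 2)).succ.succ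
    let y : Fin (K + 2 + 2) := (⟨K + 1, by omega⟩ : Fin (K + 2)).succ.succ
    have hxv : (x : ℕ) = K + 2 := rfl
    have hyv : (y : ℕ) = K + 3 := rfl
    have hx0 : x ≠ 0 := Fin.succ_ne_zero _
    have hy0 : y ≠ 0 := Fin.succ_ne_zero _
    have hx1 : x ≠ 1 := by
      intro h
      have h1 := congrArg Fin.val h
      rw [hxv, Fin.val_one] at h1
      omega
    have hy1 : y ≠ 1 := by
      intro h
      have h1 := congrArg Fin.val h
      rw [hyv, Fin.val_one] at h1
      omega
    let τ : MvPolynomial (Fin (K + 2 + 2) × Fin (K + 2 + 1)) ℂ →ₐ[ℂ]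
        MvPolynomial (Fin (K + 2 + 2) × Fin (K + 2 + 1)) ℂ :=
      rename (fun p => (Equiv.swap x y p.1, p.2))
    have hτ : ∀ i P, τ (plc i P) = plc (Equiv.swap x y i) P := by
      intro i P
      simp only [τ, plc]
      rw [rename_rename]
      rfl
    have hD0 : τ (dZero plc X) = - dZero (plc (N := K + 2)) X := by
      rw [dZero]
      exact det_swap plc τ hτ Fin.succ (Fin.succ_injective _)
        (⟨K, by omega⟩ : Fin (K + 2)).succ (⟨K + 1, by omega⟩ : Fin (K + 2)).succ (by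
          intro h
          have h1 := congrArg Fin.val (Fin.succ_injective _ h)
          simp at h1) rfl rfl X
    have hD1 : τ (dOne plc X) = - dOne (plc (N := K + 2)) X := by
      rw [dOne]
      exact det_swap plc τ hτ sk sk_injective
        (⟨K, by omega⟩ : Fin (K + 2)).succ (⟨K + 1, by omega⟩ : Fin (K + 2)).succ (by
          intro h
          have h1 := congrArg Fin.val (Fin.succ_injective _ h)
          simp at h1) rfl rfl X
    have hbr : τ (br plc 0 1 u v) = br (plc (N := K + 2)) 0 1 u v := by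
      simp only [br, map_sub, map_mul, hτ]
      rw [Equiv.swap_apply_of_ne_of_ne hx0.symm hy0.symm,
        Equiv.swap_apply_of_ne_of_ne hx1.symm hy1.symm]
    have hsym : ∀ M, H241.mf f' (dOne plc X * br plc 0 1 u v) (τ M) =
        H241.mf f' (dOne plc X * br plc 0 1 u v) M :=
      sym_of f τ (fun M => hs (Equiv.swap x y) M) hD0 hD1 hbr
    have h2 := C1 (pl := plc) (L := H280.linS (K + 2 + 1)) (a := K + 2 + 2) (d := K + 2 + 2)
      hmerge (by omega) (by omega) (g := H241.mf f' (dOne plc X * br plc 0 1 u v))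
      (gKil plc (H280.linS (K + 2 + 1)) f' H X hx u v hu hv) (x := x) (y := y)
      (by rw [Fin.lt_def, hxv, hyv]; omega) (by
        intro i hix hiy
        rw [Fin.lt_def, hxv]
        have h3 := i.2
        have h4 : (i : ℕ) ≠ K + 2 := fun h => hix (Fin.ext (by rw [h, hxv]))
        have h5 : (i : ℕ) ≠ K + 3 := fun h => hiy (Fin.ext (by rw [h, hyv]))
        omega) τ hτ hsym B (by
        intro i
        exact hB i)
    rw [H241.mf_apply, mul_assoc] at h2
    exact h2
  intro P hP Q hQ B hB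
  have h1 := step3 (plc (N := N)) (H280.linS (N + 1)) hmerge f' H X hx hg P hP Q hQ B hB
  rw [hf', H241.mf_apply] at h1
  exact h1

end

end Vale.Agent.P181.H797
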