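import Vale.Agent.P181.H241.Chain
import Vale.Agent.P181.H797.R1

set_option autoImplicit false

/-! Steps (1) and (3): from the first order relation to `f' D_1 = 0`. -/

namespace Vale.Agent.P181.H797

open Vale.Agent.P181 Vale.Agent.P181.H241 Finset

section Abstract

variable {N : ℕ} {A R : Type*} [CommRing A] [Algebra ℂ A] [CommRing R] [Algebra ℂ R]

/-- The points `0, 2, 3, …`. -/
def sk : Fin (N + 1) → Fin (N + 2) := Fin.cons 0 (fun t : Fin N => t.succ.succ)

/-- The determinant of the points `0, 2, 3, …` -/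
noncomputable def dOne (pl : Fin (N + 2) → A →ₐ[ℂ] R) (x : Fin (N + 1) → A) : R :=
  Matrix.det (Matrix.of fun s t : Fin (N + 1) => pl (sk t) (x s))

/-- The determinant of the points `1, 2, 3, …` -/
noncomputable def dZero (pl : Fin (N + 2) → A →ₐ[ℂ] R) (x : Fin (N + 1) → A) : R :=
  Matrix.det (Matrix.of fun s t : Fin (N + 1) => pl t.succ (x s))

/-- The hypothesis (H). -/
def HypH (pl : Fin (N + 2) → A →ₐ[ℂ] R) (L : Submodule ℂ A) (f' : R →ₗ[ℂ] ℂ) : Prop :=
  ∀ F ∈ L ^ (N + 2), ∀ B : Fin (N + 1) → A, (∀ j, B j ∈ L ^ (N + 1)) →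
      f' (pl 0 (F * F) * ∏ j : Fin (N + 1), pl j.succ (B j * F)) = 0

lemma rel (pl : Fin (N + 2) → A →ₐ[ℂ] R) (L : Submodule ℂ A) (f' : R →ₗ[ℂ] ℂ)
    (H : HypH pl L f') (x : Fin (N + 1) → A) (hx : ∀ s, x s ∈ L)
    (F : A) (hF : F ∈ L ^ (N + 2)) (G : A) (hG : G ∈ L ^ (N + 1))
    (B1 : A) (hB1 : B1 ∈ L ^ (N + 1)) (B : Fin N → A) (hB : ∀ j, B j ∈ L ^ N) :
    2 * f' (dOne pl x *
      (pl 0 (F * G) * pl 1 (B1 * F) * ∏ j : Fin N, pl j.succ.succ (B j * F))) +
    f' (dZero pl x *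
      (pl 0 (F * F) * pl 1 (B1 * G) * ∏ j : Fin N, pl j.succ.succ (B j * F))) = 0 :=
  rOneA pl L f' H x hx F hF G hG B1 hB1 B hB

lemma prod_univ_two {M : Type*} [CommMonoid M] (g : Fin (N + 2) → M) :
    ∏ i, g i = g 0 * g 1 * ∏ j : Fin N, g j.succ.succ := by
  rw [Fin.prod_univ_succ, Fin.prod_univ_succ, Fin.succ_zero_eq_one, mul_assoc]

/-- **(S1)** -/
theorem gKil (pl : Fin (N + 2) → A →ₐ[ℂ] R) (L : Submodule ℂ A) (f' : R →ₗ[ℂ] ℂ)
    (H : HypH pl L f') (x : Fin (N + 1) → A) (hx : ∀ s, x s ∈ L) (u v : A) (hu : u ∈ L)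
    (hv : v ∈ L) :
    Kil pl L (N + 2) (mf f' (dOne pl x * br pl 0 1 u v)) Finset.univ (fun _ => N) := by
  intro F hF B hB
  have key : ∀ y ∈ L, ∀ z ∈ L,
      2 * f' (dOne pl x *
      (pl 0 (F * (y * B 0)) * pl 1 ((z * B 1) * F) *
        ∏ j : Fin N, pl j.succ.succ (B j.succ.succ * F))) +
    f' (dZero pl x *
      (pl 0 (F * F) * pl 1 ((z * B 1) * (y * B 0)) *
        ∏ j : Fin N, pl j.succ.succ (B j.succ.succ * F))) = 0 := by
    intro y hy z hz
    apply rel pl L f' H x hx F hF (y * B 0) _ (z * B 1) _ (fun j => B j.succ.succ)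
      (fun j => hB _ (Finset.mem_univ _))
    · rw [pow_succ']
      exact Submodule.mul_mem_mul hy (hB _ (Finset.mem_univ _))
    · rw [pow_succ']
      exact Submodule.mul_mem_mul hz (hB _ (Finset.mem_univ _))
  have h1 := key u hu v hv
  have h2 := key v hv u hu
  have h3 : (v * B 1) * (u * B 0) = (u * B 1) * (v * B 0) := by ring
  rw [h3] at h1
  have h4 : f' (dOne pl x *
      (pl 0 (F * (u * B 0)) * pl 1 ((v * B 1) * F) *
        ∏ j : Fin N, pl j.succ.succ (B j.succ.succ * F))) -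
      f' (dOne pl x *
      (pl 0 (F * (v * B 0)) * pl 1 ((u * B 1) * F) *
        ∏ j : Fin N, pl j.succ.succ (B j.succ.succ * F))) = 0 := by
    have h5 := sub_eq_zero.2 (h1.trans h2.symm)
    have h6 : (2 : ℂ) * (f' (dOne pl x *
      (pl 0 (F * (u * B 0)) * pl 1 ((v * B 1) * F) *
        ∏ j : Fin N, pl j.succ.succ (B j.succ.succ * F))) -
      f' (dOne pl x *
      (pl 0 (F * (v * B 0)) * pl 1 ((u * B 1) * F) *
        ∏ j : Fin N, pl j.succ.succ (B j.succ.succ * F)))) = 0 := by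
      linear_combination h5
    exact (mul_eq_zero.1 h6).resolve_left two_ne_zero
  rw [mf_apply, prod_univ_two, ← h4, ← map_sub]
  congr 1
  simp only [br, map_mul]
  ring

/-- **(S3)** -/
theorem step3 (pl : Fin (N + 2) → A →ₐ[ℂ] R) (L : Submodule ℂ A) (hmerge : MergeH pl L)
    (f' : R →ₗ[ℂ] ℂ) (H : HypH pl L f') (x : Fin (N + 1) → A) (hx : ∀ s, x s ∈ L)
    (hg : ∀ u ∈ L, ∀ v ∈ L, ∀ B : Fin (N + 2) → A, (∀ i, B i ∈ L ^ (N + 2 + N)) →
      f' (dOne pl x * (br pl 0 1 u v * ∏ i, pl i (B i))) = 0) :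
    ∀ P ∈ L ^ (2 * N + 3), ∀ Q ∈ L ^ (2 * N + 3), ∀ B : Fin N → A,
      (∀ j, B j ∈ L ^ (2 * N + 2)) →
      f' (dOne pl x * (pl 0 P * pl 1 Q * ∏ j : Fin N, pl j.succ.succ (B j))) = 0 := by
  classical
  let em : Fin N ↪ Fin (N + 2) :=
    ⟨fun j => j.succ.succ, fun i j h => Fin.succ_injective _ (Fin.succ_injective _ h)⟩
  let I : Finset (Fin (N + 2)) := Finset.univ.map em
  have hI : I.card = N := by rw [Finset.card_map, Finset.card_univ, Fintype.card_fin]
  have h0I : (0 : Fin (N + 2)) ∉ I := by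
    intro h
    obtain ⟨j, _, hj⟩ := Finset.mem_map.1 h
    have hj' : (j.succ.succ : Fin (N + 2)) = 0 := hj
    exact Fin.succ_ne_zero _ hj'
  have hprod : ∀ B : Fin (N + 2) → R, ∏ i ∈ I, B i = ∏ j : Fin N, B j.succ.succ := by
    intro B
    rw [Finset.prod_map]
    rfl
  have hmem : ∀ (P : Fin (N + 2) → Prop), (∀ i ∈ I, P i) → ∀ j : Fin N, P j.succ.succ :=
    fun P h j => h _ (Finset.mem_map_of_mem em (Finset.mem_univ j))
  have h22 : 2 * N + 2 = N + 2 + N := by ring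
  obtain ⟨γ, hγ⟩ := hmerge 0 1 (by simp) I h0I (fun _ => 2 * N + 2) (2 * N + 2) (2 * N + 2)
    (mf f' (dOne pl x)) (by
      intro u hu v hv P hP Q hQ B hB
      rw [hprod]
      have h1 := hg u hu v hv (Fin.cons P (Fin.cons Q (fun j => B j.succ.succ))) (by
        intro i
        rw [← h22]
        refine Fin.cases ?_ (fun i => ?_) i
        · exact hP
        · refine Fin.cases ?_ (fun j => ?_) i
          · exact hQ
          · exact hmem (fun i => B i ∈ L ^ (2 * N + 2)) hB j)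
      rw [prod_univ_two] at h1
      rw [mf_apply]
      exact h1)
  have hγ' : ∀ P ∈ L ^ (2 * N + 3), ∀ Q ∈ L ^ (2 * N + 3), ∀ B : Fin N → A,
      (∀ j, B j ∈ L ^ (2 * N + 2)) →
      f' (dOne pl x * (pl 0 P * pl 1 Q * ∏ j : Fin N, pl j.succ.succ (B j))) =
      γ (pl 0 (P * Q) * ∏ j : Fin N, pl j.succ.succ (B j)) := by
    intro P hP Q hQ B hB
    have h1 := hγ P hP Q hQ (Fin.cons 0 (Fin.cons 0 B)) (by
      intro i hi
      obtain ⟨j, _, rfl⟩ := Finset.mem_map.1 hi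
      exact hB j)
    rw [hprod, mf_apply] at h1
    exact h1
  -- the merged functional
  have hz : ∀ F ∈ L ^ (N + 2), ∀ B : Fin N → A, (∀ j, B j ∈ L ^ N) →
      ∀ Z ∈ L ^ ((N + 1) + (N + 1)),
      2 * γ (pl 0 (F * F * Z) * ∏ j : Fin N, pl j.succ.succ (B j * F)) +
      f' (dZero pl x * (pl 0 (F * F) * pl 1 Z * ∏ j : Fin N, pl j.succ.succ (B j * F))) = 0 := by
    intro F hF B hB Z hZ
    have hBF : ∀ j, B j * F ∈ L ^ (2 * N + 2) := by
      intro j
      have h1 : L ^ (2 * N + 2) = L ^ N * L ^ (N + 2) := by rw [← pow_add]; congr 1; ring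
      rw [h1]
      exact Submodule.mul_mem_mul (hB j) hF
    have h3N : L ^ (2 * N + 3) = L ^ (N + 2) * L ^ (N + 1) := by rw [← pow_add]; congr 1; ring
    let T : A →ₗ[ℂ] ℂ :=
      (2 : ℂ) • (γ ∘ₗ LinearMap.mulRight ℂ (∏ j : Fin N, pl j.succ.succ (B j * F)) ∘ₗ
        (pl 0).toLinearMap ∘ₗ LinearMap.mulLeft ℂ (F * F)) +
      f' ∘ₗ LinearMap.mulLeft ℂ (dZero pl x) ∘ₗ
        LinearMap.mulRight ℂ (∏ j : Fin N, pl j.succ.succ (B j * F)) ∘ₗ
        LinearMap.mulLeft ℂ (pl 0 (F * F)) ∘ₗ (pl 1).toLinearMap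
    have hT : ∀ Z, T Z = 2 * γ (pl 0 (F * F * Z) * ∏ j : Fin N, pl j.succ.succ (B j * F)) +
      f' (dZero pl x * (pl 0 (F * F) * pl 1 Z * ∏ j : Fin N, pl j.succ.succ (B j * F))) :=
      fun Z => rfl
    rw [← hT]
    refine span_mul (L := L) T ?_ Z hZ
    intro G hG B1 hB1
    rw [hT]
    have h1 := rel pl L f' H x hx F hF G hG B1 hB1 B hB
    rw [hγ' (F * G) (by rw [h3N]; exact Submodule.mul_mem_mul hF hG) (B1 * F)
      (by rw [h3N, mul_comm B1 F]; exact Submodule.mul_mem_mul hF hB1) _ hBF] at h1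
    rw [← h1]
    congr 2
    · congr 2
      congr 1
      ring
    · rw [mul_comm G B1]
  have hker : ∀ F ∈ L ^ (N + 2), ∀ C ∈ L ^ N, ∀ B : Fin (N + 2) → A, (∀ i ∈ I, B i ∈ L ^ N) →
      γ (pl 0 (C * F ^ 3) * ∏ i ∈ I, pl i (B i * F)) = 0 := by
    intro F hF C hC B hB
    rw [hprod]
    have hB' := hmem (fun i => B i ∈ L ^ N) hB
    have h1 := hz F hF (fun j => B j.succ.succ) hB' (C * F) (by
      have h1 : L ^ ((N + 1) + (N + 1)) = L ^ N * L ^ (N + 2) := by
        rw [← pow_add]; congr 1; ring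
      rw [h1]
      exact Submodule.mul_mem_mul hC hF)
    have h2 : f' (dZero pl x * (pl 0 (F * F) * pl 1 (C * F) *
        ∏ j : Fin N, pl j.succ.succ (B j.succ.succ * F))) = 0 := by
      rw [dZero, det_expand (fun t s => pl t.succ (x s)), map_sum]
      apply Finset.sum_eq_zero
      intro σ _
      rw [map_smul, smul_eq_mul]
      have h3 := H F hF (mk x (x (σ 0) * C) (fun j => B j.succ.succ) σ) (by
        intro j
        refine Fin.cases ?_ (fun j => ?_) j
        · rw [mk_zero, pow_succ']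
          exact Submodule.mul_mem_mul (hx _) hC
        · rw [mk_succ, pow_succ']
          exact Submodule.mul_mem_mul (hx _) (hB' j))
      rw [Fin.prod_univ_succ] at h3
      simp only [mk_zero, mk_succ] at h3
      have h4 : (pl (0 : Fin (N + 1)).succ (x (σ 0)) *
          ∏ j : Fin N, pl j.succ.succ (x (σ j.succ))) *
          (pl 0 (F * F) * pl 1 (C * F) *
            ∏ j : Fin N, pl j.succ.succ (B j.succ.succ * F)) =
          pl 0 (F * F) * (pl (0 : Fin (N + 1)).succ (x (σ 0) * C * F) *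
            ∏ j : Fin N, pl j.succ.succ (x (σ j.succ) * B j.succ.succ * F)) := by
        simp only [map_mul, Finset.prod_mul_distrib]
        rw [Fin.succ_zero_eq_one]
        ring
      rw [h4, h3, mul_zero]
    rw [h2, add_zero] at h1
    have h5 := (mul_eq_zero.1 h1).resolve_left two_ne_zero
    rw [← h5]
    congr 2
    congr 1
    ring
  intro P hP Q hQ B hB
  rw [hγ' P hP Q hQ B hB]
  have h6 := Kp (pl := pl) (L := L) (I := I) (p := 0) (e := 3) (β := N) (b' := N) (a := N + 2)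
    γ hker (by omega) (by omega) (P * Q) (by
      have h1 : L ^ (N + 3 * (N + 2)) = L ^ (2 * N + 3) * L ^ (2 * N + 3) := by
        rw [← pow_add]; congr 1; ring
      rw [h1]
      exact Submodule.mul_mem_mul hP hQ) (Fin.cons 0 (Fin.cons 0 B)) (by
      intro i hi
      obtain ⟨j, _, rfl⟩ := Finset.mem_map.1 hi
      have h1 : N + (N + 2) = 2 * N + 2 := by ring
      rw [h1]
      exact hB j)
  rw [hprod] at h6
  exact h6

end Abstract

end Vale.Agent.P181.H797
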